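import Crest.Agent.X212.Mv42.W

/-!
# X212/Mv42/One (helper42): MV-1
-/

set_option autoImplicit false
set_option linter.unusedSectionVars false

open Finset Classical

noncomputable section

namespace Crest.Agent.X212.Mv42

open Hp13 Hk
open Alg36 (Om Esc)
open Kh11 (WS sctr_min)

variable {P : Type} [PartialOrder P] [Fintype P] {A B X G N : Set P}

theorem t2_mono : Monotone (t2 : Ch (Ch P) → P) := Ch.top_mono.comp Ch.top_mono

theorem le_t2 {c : Ch (Ch P)} {x : P} (h : x ∈ c.bot.1) : x ≤ t2 c :=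
  Ch.le_top (c.bot_le_top h)

theorem cl_low (X : Set P) : IsLowerSet (cl X) := fun _ _ h ⟨a, ha, k⟩ => ⟨a, ha, h.trans k⟩

theorem sub_cl (X : Set P) : X ⊆ cl X := fun x h => ⟨x, h, le_rfl⟩

theorem mem_om {x : P} : x ∈ Om X ↔ x ∈ cl X ∧ x ∉ X := and_comm

theorem cm_cl (hX : IsUpperSet X) {a x : P} (ha : a ∈ X) (h : Cm a x) : x ∈ cl X :=
  h.elim (fun k => sub_cl X (hX k ha)) fun k => ⟨a, ha, k⟩

/-- `Nice` for upper sets -/
theorem nice_iff (hX : IsUpperSet X) : Nice X ↔ ∀ x ∈ cl X, Ctr {y | y ∈ X ∧ x ≤ y} := by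
  have e : ∀ c : Ch P, ¬ Mt X c → {a | a ∈ X ∧ ∀ x ∈ c.1, Cm a x} = {y | y ∈ X ∧ c.top ≤ y} :=
    fun c hc => Set.ext fun a => and_congr_right fun ha =>
      ⟨fun k => (k _ c.top_mem).resolve_left fun l => hc ⟨_, c.top_mem, hX l ha⟩,
        fun k x hx => Or.inr ((Ch.le_top hx).trans k)⟩
  refine ⟨fun h x ⟨a, ha, k⟩ => ?_, fun h c ⟨a, ha, k⟩ hc => ?_⟩
  · by_cases hx : x ∈ X
    · exact sctr_min (m := x) ⟨hx, le_rfl⟩ fun _ h => h.2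
    · have := h (Ch.pt x) ⟨a, ha, by simpa [Cm] using Or.inr k⟩ (by rwa [mt_pt])
      rwa [e _ (by rwa [mt_pt]), Ch.top_pt] at this
  · rw [e c hc]
    exact h _ (cm_cl hX ha (k _ c.top_mem))

theorem esc_sub (h : Esc B B) (hA : A ⊆ B) : Esc A A := fun a ha => by
  by_contra hn
  push Not at hn
  obtain ⟨b, -, r, x, hx, c⟩ := h a (hA ha)
  have : b ∈ A ∧ Rch A a b := by
    clear c
    induction r with
    | refl => exact ⟨ha, Rch.rfl⟩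
    | tail _ k ih =>
      have := not_not.1 fun l => hn _ ih.1 ih.2 _ l k.2.2
      exact ⟨this, ih.2.trans (Rch.of_cm ih.1 this k.2.2)⟩
  exact hn b this.1 this.2 x (fun k => hx (hA k)) c

/-- `Bnd` passes to a part if the rest reaches the boundary -/
theorem bnd_sub {R : Type} [AddCommGroup R] (hA : IsUpperSet A) (s : A ⊆ B)
    (h : Bnd R B) (r : ∀ x ∈ Om A, ∃ y ∉ B, Rch (cl B \ A) x y) : Bnd R A := by
  intro z hz h0
  have dp : ∀ {x y : P}, x ≤ y → y ∈ cl A → Dp A x y := fun k ⟨a, ha, l⟩ =>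
    ⟨k, a, ha, Or.inr (k.trans l), Or.inr l⟩
  have z0 : ∀ x y, x ≤ y → y ∉ A → Hk.ext A z x y = 0 := fun x y k hy => by
    unfold Hk.ext
    split_ifs with c
    exacts [h0 x y (dp k c) (fun l => hy (hA k l)) hy, rfl]
  obtain ⟨g, g0, hg⟩ := h (Hk.ext A z) (fun _ _ x y w k1 k2 _ _ _ => by
    by_cases c : w ∈ cl A
    · obtain ⟨a, ha, l⟩ := id c
      simp only [Hk.ext, if_pos c, if_pos (cl_low A k2 c)]
      exact hz a ha x y w k1 k2 (Or.inr ((k1.trans k2).trans l)) (Or.inr (k2.trans l)) (Or.inr l)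
    · have n : w ∉ A := fun l => c (sub_cl A l)
      rw [z0 x w (k1.trans k2) n, z0 y w k2 n, z0 x y k1 fun l => n (hA k2 l), add_zero])
    fun x y k _ hy => z0 x y k.1 fun l => hy (s l)
  have v : ∀ x ∈ cl A, (if x ∈ A then g x else 0) = g x := fun x hx => by
    split_ifs with c
    · rfl
    · obtain ⟨y, hy, k⟩ := r x (mem_om.2 ⟨hx, c⟩)
      rw [Alg36.rch_eq k (g := g), g0 y hy]
      rintro a - b ⟨⟨u, hu, l⟩, hb⟩ hab
      have := hg a b ⟨hab, u, hu, Or.inr (hab.trans l), Or.inr l⟩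
      rw [z0 a b hab hb, zero_add, cb] at this
      exact (sub_eq_zero.1 this.symm).symm
  refine ⟨fun x => if x ∈ A then g x else 0, fun x hx => if_neg hx, fun x y k => ?_⟩
  have := hg x y (k.mono s)
  obtain ⟨-, a, ha, c1, c2⟩ := k
  rw [Hk.ext, if_pos (cm_cl hA ha c2)] at this
  rw [this]
  simp only [Pi.add_apply, cb, v x (cm_cl hA ha c1), v y (cm_cl hA ha c2)]

theorem mvX_up (hX : IsUpperSet X) (N : Set P) : IsUpperSet (mvX X N) :=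
  fun _ _ h k => ⟨hX (t2_mono h) k.1, fun x hx => k.2 x (Ch.bot_anti h hx)⟩

theorem mvK_low {K : Set P} (hK : IsLowerSet K) (N : Set P) : IsLowerSet (mvK K N) :=
  fun _ _ h k => ⟨hK (t2_mono h) k.1, let ⟨x, a, b⟩ := k.2; ⟨x, Ch.bot_anti h a, b⟩⟩

theorem mvD_low (X N : Set P) : IsLowerSet (mvD X N) := fun _ _ h k =>
  ⟨⟨cl_low X (t2_mono h) k.1.1, let ⟨x, a, b⟩ := k.1.2; ⟨x, Ch.bot_anti h a, b⟩⟩,
    let ⟨x, a, b⟩ := k.2; ⟨x, Ch.bot_anti h a, b⟩⟩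

theorem star_mvX (hX : Rg X) {c : Ch (Ch P)} (hc : c ∈ mvK (cl X) N) :
    Ctr {d | d ∈ mvX X N ∧ c ≤ d} := by
  convert ctr_star c (· ∉ N) hc.2 ((nice_iff hX.up).1 hX.nice _ hc.1) using 1
  exact Set.ext fun _ => and_comm

theorem cl_mvX (hX : Rg X) (N : Set P) : cl (mvX X N) = mvK (cl X) N :=
  Set.ext fun _ => ⟨fun ⟨d, hd, k⟩ => mvK_low (cl_low X) N k
    ⟨sub_cl X hd.1, _, d.bot.bot_mem, hd.2 _ d.bot.bot_mem⟩, fun h => (star_mvX hX h).ne⟩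

theorem rg_mvX (hX : Rg X) (N : Set P) : Rg (mvX X N) :=
  ⟨mvX_up hX.up N, (Alg36.Mf.sd (Alg36.Mf.sd hX.mf)).mono fun _ h => h.1,
    (nice_iff (mvX_up hX.up N)).2 fun _ h => star_mvX hX (cl_mvX hX N ▸ h)⟩

theorem t2_mem (hN : Opn X G N) {c : Ch (Ch P)} (hc : c ∈ mvS X N) : t2 c ∈ N :=
  let ⟨x, a, b⟩ := hc.2; hN.up x b _ hc.1 (le_t2 a)

theorem t2_mvG (hN : Opn X G N) {c : Ch (Ch P)} (hc : c ∈ mvG X G N) :
    (t2 c ∈ X ∨ t2 c ∈ G) ∧ ∃ x ∈ c.bot.1, x ∉ N :=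
  hc.elim (fun h => ⟨Or.inr h.1, h.2⟩) fun h => ⟨hN.sub (t2_mem hN h.1), h.2⟩

theorem om_mvX (hX : Rg X) (hG : Bd X G) (hN : Opn X G N) :
    Om (mvX X N) = mvG X G N ∪ t2 ⁻¹' (Om X \ G) := by
  ext c
  rw [mem_om, cl_mvX hX]
  refine ⟨fun ⟨h, n⟩ => ?_, ?_⟩
  · by_cases k : ∃ x ∈ c.bot.1, x ∈ N
    · exact Or.inl (Or.inr ⟨⟨h.1, k⟩, h.2⟩)
    by_cases l : t2 c ∈ G
    · exact Or.inl (Or.inl ⟨l, h.2⟩)
    · exact Or.inr ⟨mem_om.2 ⟨h.1, fun a => n ⟨a, fun x hx b => k ⟨x, hx, b⟩⟩⟩, l⟩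
  · rintro ((h | h) | h)
    · exact ⟨⟨(hG.sub h.1).2, h.2⟩, fun k => (hG.sub h.1).1 k.1⟩
    · exact ⟨⟨h.1.1, h.2⟩, fun k => let ⟨x, a, b⟩ := h.1.2; k.2 x a b⟩
    · exact ⟨⟨h.1.2, _, c.bot.bot_mem, fun k =>
        (hN.sub (t2_mem hN ⟨h.1.2, _, c.bot.bot_mem, k⟩)).elim h.1.1 h.2⟩, fun k => h.1.1 k.1⟩

theorem bd_mvX (hX : Rg X) (hG : Bd X G) (hN : Opn X G N) : Bd (mvX X N) (mvG X G N) := by
  refine ⟨(mvK_low hG.low N).union (mvD_low X N), om_mvX hX hG hN ▸ Set.subset_union_left,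
    fun x hx y hy k => ?_⟩
  rw [om_mvX hX hG hN] at hy
  exact hy.resolve_right fun h => (t2_mvG hN hx).1.elim (fun l => h.1.1 (hX.up (t2_mono k) l))
    fun l => h.2 (hG.clo _ l _ h.1 (t2_mono k))

theorem amb_mvX (hX : Amb X) (hN : Opn X G N) (hG : Bd X G) (r : ∀ n ∈ N, ∃ m ∈ Om X, Rch N n m) :
    Amb (mvX X N) := by
  have u1 : IsUpperSet (Ch.top ⁻¹' X : Set (Ch P)) := hX.up.preimage Ch.top_mono
  have n1 := Alg36.Nice.sd hX.up.ordConnected hX.nice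
  have w := (mvW P (cl X) N (cl_low X) hN.up).2.1
  have s : N ⊆ cl X ∩ N := fun x hx =>
    ⟨(hN.sub hx).elim (fun k => sub_cl X k) fun k => (hG.sub k).2, hx⟩
  have key : ∀ (R : Type) [AddCommGroup R], Bnd R X → Bnd R (mvX X N) := fun R _ h => by
    refine bnd_sub (mvX_up hX.up N) (B := Ch.top ⁻¹' (Ch.top ⁻¹' X)) (fun _ h => h.1)
      (Alg36.Bnd.sd u1.ordConnected n1 (Alg36.Bnd.sd hX.up.ordConnected hX.nice h)) fun c hc => ?_
    by_cases k : t2 c ∈ X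
    swap
    · exact ⟨c, k, Rch.rfl⟩
    have m : c ∈ mvH (cl X) N := ⟨sub_cl X k, by
      by_contra l
      exact hc.1 ⟨k, fun x a b => l ⟨x, a, b⟩⟩⟩
    obtain ⟨y, hy, l⟩ := r _ (w.maps m).2
    have e : t2 (Ch.pt (Ch.pt y)) = y := by simp
    refine ⟨Ch.pt (Ch.pt y), fun a => hy.1 (e ▸ a), ((w.rch_iff m ⟨e.symm ▸ hy.2, y, by simp,
      l.mem (w.maps m).2⟩).2 (e.symm ▸ l.mono s)).mono fun d hd => ⟨?_, fun a => ?_⟩⟩
    · have := cl_mvX hX.toRg ∅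
      simp only [mvX, mvK, Set.mem_empty_iff_false, not_false_eq_true, implies_true,
        and_true] at this
      exact this.ge ⟨hd.1, d.bot.2.1⟩
    · exact let ⟨x, a', b⟩ := hd.2; a.2 x a' b
  exact ⟨rg_mvX hX.toRg N, key _ hX.bnd, key _ hX.bnd2,
    esc_sub (Alg36.Esc.sd (Alg36.Esc.sd hX.esc)) fun _ h => h.1⟩

theorem two_mvX (glu : GluStmt) (hX : Rg X) (hN : Opn X G N) {R : Type} [PartialOrder R]
    {car : P → R} {Y X' : Set P} (hY : IsUpperSet Y) (h : Two car Y X G X') :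
    Two (car ∘ t2) (t2 ⁻¹' Y) (mvX X N) (mvG X G N) (mvY Y X' N) := by
  have nd : ∀ c ∈ mvG X G N, c ∉ mvY Y X' N := fun c hc k => by
    obtain ⟨a, x, b1, b2⟩ := t2_mvG hN hc
    exact k.elim (fun k => a.elim (fun a => Set.disjoint_left.1 h.dj a k)
      fun a => Set.disjoint_left.1 h.dg k a) fun k => b2 (k.2 x b1)
  refine ⟨h.mono.comp t2_mono, mvX_up hX.up N, fun _ _ k l => l.imp (h.up' (t2_mono k))
    fun l => ⟨hY (t2_mono k) l.1, fun x hx => l.2 x (Ch.bot_anti k hx)⟩, fun _ k => h.sub k.1,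
    fun _ k => k.elim (fun k => h.sub' k) fun k => k.1, fun c hc => ?_,
    Set.disjoint_left.2 fun c k l => l.elim (Set.disjoint_left.1 h.dj k.1)
      fun l => k.2 _ c.bot.bot_mem (l.2 _ c.bot.bot_mem),
    Set.disjoint_right.2 nd, bd_mvX hX h.bd hN, fun T hT c hc k => ?_, fun T hT c hc k => ?_⟩
  · by_cases a : ∀ x ∈ c.bot.1, x ∈ N
    · exact Or.inr (Or.inr (Or.inr ⟨hc, a⟩))
    push Not at a
    rcases h.cov _ hc with l | l | l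
    · by_cases b : ∃ x ∈ c.bot.1, x ∈ N
      · exact Or.inr (Or.inl (Or.inr ⟨⟨sub_cl X l, b⟩, a⟩))
      · exact Or.inl ⟨l, fun x u v => b ⟨x, u, v⟩⟩
    · exact Or.inr (Or.inl (Or.inl ⟨l, a⟩))
    · exact Or.inr (Or.inr (Or.inl l))
  · obtain ⟨a, b⟩ := t2_mvG hN hc.1
    convert ctr_star c (U := {y | y ∈ X ∧ car y ∈ T}) (· ∉ N) b (a.elim
      (fun a => sctr_min (m := t2 c) ⟨⟨a, k⟩, le_rfl⟩ fun _ h => h.2) fun a => by
        convert h.tv T hT _ ⟨a, hc.2⟩ k using 1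
        ext; simp only [Set.mem_ofPred_eq]; tauto) using 1
    ext; simp only [mvX, Set.mem_ofPred_eq, Function.comp]; tauto
  · have s : ∀ p : P → Prop, (∃ x ∈ c.bot.1, p x) → t2 c ∈ G → Ctr {d : Ch (Ch P) | c ≤ d ∧
        t2 d ∈ {y | y ∈ X' ∧ car y ∈ T} ∧ ∀ x ∈ d.bot.1, p x} := fun p a b =>
      ctr_star c p a (by
        convert h.tv' T hT _ ⟨b, hc.2⟩ k using 1
        ext; simp only [Set.mem_ofPred_eq]; tauto)
    have s1 := s (fun _ => True) ⟨_, c.bot.bot_mem, trivial⟩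
    by_cases b : ∃ x ∈ c.bot.1, x ∈ N
    swap
    · convert s1 (hc.1.resolve_right fun l => b l.1.2).1 using 1
      ext d
      exact ⟨fun l => ⟨l.2.1, ⟨l.1.resolve_right fun u => b ⟨_, Ch.bot_anti l.2.1 d.bot.bot_mem,
        u.2 _ d.bot.bot_mem⟩, l.2.2⟩, fun _ _ => trivial⟩, fun l => ⟨Or.inl l.2.1.1, l.1, l.2.1.2⟩⟩
    have s2 := ctr_star c (U := {y | y ∈ Y ∧ car y ∈ T}) (· ∈ N) b
      (sctr_min (m := t2 c) ⟨⟨hc.2, k⟩, le_rfl⟩ fun _ h => h.2)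
    rcases (t2_mvG hN hc.1).1 with a | a
    · convert s2 using 1
      ext d
      exact ⟨fun l => have := l.1.resolve_left (Set.disjoint_left.1 h.dj (h.up (t2_mono l.2.1) a))
        ⟨l.2.1, ⟨this.1, l.2.2⟩, this.2⟩, fun l => ⟨Or.inr ⟨l.2.1.1, l.2.2⟩, l.1, l.2.1.2⟩⟩
    · convert (glu _ _ _ (Or.inr ⟨fun x u y v l => ?_, fun x u y v l => ?_⟩)).2.1 (s1 a) s2 ?_ using 1
      · ext d
        exact ⟨fun l => l.1.imp (fun u => ⟨l.2.1, ⟨u, l.2.2⟩, fun _ _ => trivial⟩)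
          fun u => ⟨l.2.1, ⟨u.1, l.2.2⟩, u.2⟩, fun l => l.elim (fun l => ⟨Or.inl l.2.1.1, l.1, l.2.1.2⟩)
            fun l => ⟨Or.inr ⟨l.2.1.1, l.2.2⟩, l.1, l.2.1.2⟩⟩
      · exact ⟨u.1.trans l, ⟨h.up' (t2_mono l) u.2.1.1, v.elim (·.2.1.2) (·.2.1.2)⟩,
          fun _ _ => trivial⟩
      · exact ⟨u.1.trans l, ⟨hY (t2_mono l) u.2.1.1, v.elim (·.2.1.2) (·.2.1.2)⟩,
          fun t ht => u.2.2 t (Ch.bot_anti l ht)⟩
      · convert s (· ∈ N) b a using 1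
        ext d
        exact ⟨fun l => ⟨l.1.1, l.1.2.1, l.2.2.2⟩, fun l => ⟨⟨l.1, l.2.1, fun _ _ => trivial⟩, l.1,
          ⟨h.sub' l.2.1.1, l.2.1.2⟩, l.2.2⟩⟩

/-- **MV-1** -/
theorem mv1 (glu : GluStmt) : Mv1Stmt := fun _ _ _ _ _ N hX hG hN =>
  ⟨rg_mvX hX N, bd_mvX hX hG hN, cl_mvX hX N, om_mvX hX hG hN, fun h r => amb_mvX h hN hG r,
    fun _ _ _ _ _ hY h => two_mvX glu hX hN hY h⟩

end Crest.Agent.X212.Mv42
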