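import Crest.Agent.X212.Kh11.Leaf

/-!
# X212/Mv42/W (helper42): MV-W, and the star of a chain with conditions on `top` and `bot`
-/

set_option autoImplicit false
set_option linter.unusedSectionVars false

open Finset Classical

noncomputable section

namespace Crest.Agent.X212.Mv42

open Hp13 Hk
open Alg36 (Om ws_up ws_sd top_ins top_ins')
open Kh11 (WS In ws_top sctr_min sctr_max)

variable {P : Type} [PartialOrder P] [Fintype P]

theorem bot_ins {c : Ch P} {x : P} (h : ∀ y ∈ c.1, Cm x y) (hx : c.bot ≤ x) :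
    (c.ins x h).bot = c.bot :=
  Ch.bot_eq (mem_insert_of_mem c.bot_mem) fun y hy => by
    rcases mem_insert.1 hy with rfl | k
    exacts [hx, Ch.bot_le k]

theorem bot_ins' {c : Ch P} {x : P} (h : ∀ y ∈ c.1, Cm x y) (hx : x ≤ c.bot) :
    (c.ins x h).bot = x :=
  Ch.bot_eq (mem_insert_self _ _) fun y hy => by
    rcases mem_insert.1 hy with rfl | k
    exacts [le_rfl, hx.trans (Ch.bot_le k)]

/-- the chains over `c` with `top` in `U` and `bot` in `L`, if `L` has a largest point under `c` -/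
theorem ws_star (c : Ch P) (U : Set P) {L : Set P} {m : P} (hm : m ∈ L) (h1 : m ≤ c.bot)
    (h2 : ∀ l ∈ L, l ≤ c.bot → l ≤ m) :
    WS {d : Ch P | c ≤ d ∧ d.top ∈ U ∧ d.bot ∈ L} {u | u ∈ U ∧ c.top ≤ u} Ch.top := by
  refine WS.of_le (fun d hd => ⟨hd.2.1, Ch.top_mono hd.1⟩) (fun _ _ _ _ h => Ch.top_mono h)
    fun u hu => ?_
  set F : Set (Ch P) := {d | d ∈ {d : Ch P | c ≤ d ∧ d.top ∈ U ∧ d.bot ∈ L} ∧ d.top ≤ u}
  have w1 : WS {d | d ∈ F ∧ ∀ e ∈ d.1, e ∈ L ∨ c.bot ≤ e} F id := by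
    refine WS.of_int' (fun _ h => h.1) fun d hd => ?_
    let r := d.sub (d.1.filter fun e => e ∈ L ∨ c.bot ≤ e)
      ⟨_, mem_filter.2 ⟨d.bot_mem, Or.inl hd.1.2.2⟩⟩ (filter_subset _ _)
    have e1 : r.top = d.top := Ch.top_eq (mem_filter.2 ⟨d.top_mem,
      Or.inr (c.bot_le_top.trans (Ch.top_mono hd.1.1))⟩) fun x hx => Ch.le_top (mem_filter.1 hx).1
    have e2 : r.bot = d.bot := Ch.bot_eq (mem_filter.2 ⟨d.bot_mem, Or.inl hd.1.2.2⟩)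
      fun x hx => Ch.bot_le (mem_filter.1 hx).1
    exact ⟨r, ⟨⟨⟨fun x hx => mem_filter.2 ⟨hd.1.1 hx, Or.inr (Ch.bot_le hx)⟩, e1 ▸ hd.1.2.1,
      e2 ▸ hd.1.2.2⟩, e1 ▸ hd.2⟩, fun e he => (mem_filter.1 he).2⟩, filter_subset _ _,
      fun b hb k x hx => mem_filter.2 ⟨k hx, hb.2 x hx⟩⟩
  have key : ∀ d : Ch P, c ≤ d → d.top ≤ u → (∀ e ∈ d.1, e ∈ L ∨ c.bot ≤ e) →
      (d.bot ∈ L ∨ m ≤ d.bot) → ∃ r ∈ {d | (d ∈ F ∧ ∀ e ∈ d.1, e ∈ L ∨ c.bot ≤ e) ∧ m ∈ d.1 ∧ u ∈ d.1},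
        d ≤ r ∧ ∀ b : Ch P, m ∈ b.1 → u ∈ b.1 → d ≤ b → r ≤ b := by
    intro d k1 k2 k3 k4
    have a : ∀ e ∈ d.1, Cm m e := fun e he => (d.total (k1 c.bot_mem) he).elim
      (fun k => Or.inl (h1.trans k)) fun k => (k3 e he).elim (fun l => Or.inr (h2 e l k))
        fun l => Or.inl (h1.trans l)
    have t : (d.ins m a).top ≤ u := by
      rw [top_ins a (h1.trans (c.bot_le_top.trans (Ch.top_mono k1)))]; exact k2
    have b : ∀ e ∈ (d.ins m a).1, Cm u e := fun e he => Or.inr ((Ch.le_top he).trans t)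
    have e1 := top_ins' b t
    have e2 := bot_ins b ((Ch.bot_le_top _).trans t)
    refine ⟨(d.ins m a).ins u b, ⟨⟨⟨⟨k1.trans ((d.le_ins m a).trans (Ch.le_ins _ u b)),
      e1.symm ▸ hu.1, ?_⟩, e1.le⟩, fun e he => ?_⟩, mem_insert_of_mem (mem_insert_self _ _),
      mem_insert_self _ _⟩, (d.le_ins m a).trans (Ch.le_ins _ u b),
      fun x x1 x2 x3 => insert_subset x2 (insert_subset x1 x3)⟩
    · rw [e2]
      rcases k4 with k | k
      · rw [bot_ins a (h2 _ k (Ch.bot_anti k1))]; exact k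
      · rw [bot_ins' a k]; exact hm
    · rcases mem_insert.1 he with rfl | he
      · exact Or.inr (c.bot_le_top.trans hu.2)
      · rcases mem_insert.1 he with rfl | he
        exacts [Or.inl hm, k3 e he]
  have w2 := WS.of_clo' (A := {d | d ∈ F ∧ ∀ e ∈ d.1, e ∈ L ∨ c.bot ≤ e}) (fun _ h => h.1)
    fun d hd => (key d hd.1.1.1 hd.1.2 hd.2 (Or.inl hd.1.1.2.2)).imp fun _ h =>
      ⟨h.1, h.2.1, fun b hb => h.2.2 b hb.2.1 hb.2.2⟩
  obtain ⟨r, r1, -, r2⟩ := key c le_rfl hu.2 (fun e he => Or.inr (Ch.bot_le he)) (Or.inr h1)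
  exact w1.ctr_iff.1 (w2.ctr_iff.1 (sctr_min r1 fun b hb => r2 b hb.2.1 hb.2.2 hb.1.1.1.1))

/-- two levels up; the condition on `bot` is that all its points satisfy `p` -/
theorem ctr_star (c : Ch (Ch P)) {U : Set P} (p : P → Prop) (h : ∃ x ∈ c.bot.1, p x)
    (hU : Ctr {y | y ∈ U ∧ t2 c ≤ y}) :
    Ctr {d : Ch (Ch P) | c ≤ d ∧ t2 d ∈ U ∧ ∀ x ∈ d.bot.1, p x} :=
  (ws_star c {e | e.top ∈ U} (L := {e | ∀ x ∈ e.1, p x})
    (m := c.bot.sub (c.bot.1.filter p) (let ⟨x, a, b⟩ := h; ⟨x, mem_filter.2 ⟨a, b⟩⟩)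
      (filter_subset _ _)) (fun _ hx => (mem_filter.1 hx).2) (filter_subset _ _)
    fun _ hl k x hx => mem_filter.2 ⟨k hx, hl x hx⟩).ctr_iff.2 (by
      convert (ws_up c.top U).ctr_iff.2 hU using 1
      exact Set.ext fun _ => and_comm)

theorem mvK_eq {K : Set P} (hK : IsLowerSet K) (N : Set P) :
    mvK K N = In {e | e.top ∈ K ∧ ∃ x ∈ e.1, x ∉ N} Set.univ :=
  Set.ext fun c => ⟨fun h => ⟨fun _ he => ⟨hK (Ch.top_mono (Ch.le_top he)) h.1,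
    let ⟨x, a, b⟩ := h.2; ⟨x, Ch.bot_le he a, b⟩⟩, trivial⟩,
    fun h => ⟨(h.1 _ c.top_mem).1, (h.1 _ c.bot_mem).2⟩⟩

theorem mvH_eq (K N : Set P) : mvH K N = mvK K Nᶜ := by
  simp only [mvH, mvK, Set.mem_compl_iff, not_not]

/-- **MV-W** -/
theorem mvW : MvWStmt := by
  intro P _ _ K N hK hN
  have up : ∀ e : Ch P, e.top ∈ K → (∃ x ∈ e.1, x ∈ N) → e.top ∈ N :=
    fun e he ⟨x, a, b⟩ => hN x b _ he (Ch.le_top a)
  have dn : ∀ e : Ch P, e.top ∈ K → (∃ x ∈ e.1, x ∉ N) → e.bot ∉ N :=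
    fun e he ⟨x, a, b⟩ k => b (hN _ k x (hK (Ch.le_top a) he) (Ch.bot_le a))
  refine ⟨WS.of_le (fun c hc => ?_) (fun _ _ _ _ h => Ch.bot_anti (Ch.bot_anti h)) fun y hy => ?_,
    ?_, ?_⟩
  · have := hK (Ch.top_mono c.bot_le_top) hc.1
    exact ⟨hK (Ch.bot_le_top _) this, dn _ this hc.2⟩
  · have e : {c | c ∈ mvK K N ∧ c.bot.bot ≤ y} = In {e | e.top ∈ K ∧ e.bot ≤ y} Set.univ :=
      Set.ext fun c => ⟨fun h => ⟨fun _ he => ⟨hK (Ch.top_mono (Ch.le_top he)) h.1.1,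
        (Ch.bot_anti (Ch.bot_le he)).trans h.2⟩, trivial⟩, fun h => ⟨⟨(h.1 _ c.top_mem).1,
          _, c.bot.bot_mem, fun k => hy.2 (hN _ k y hy.1 (h.1 _ c.bot_mem).2)⟩, (h.1 _ c.bot_mem).2⟩⟩
    rw [e, (ws_top _).ctr_iff, ← (WS.of_int' (D := Ch.top ⁻¹' Set.Iic y)
      (A := {e : Ch P | e.top ∈ K ∧ e.bot ≤ y}) (fun c hc => ⟨hK hc hy.1, c.bot_le_top.trans hc⟩) fun c hc =>
        ⟨Kh11.Ch.dn c y hc.2, (Alg36.mem_dn.1 (Ch.top_mem _)).2, Alg36.dn_le,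
          fun b hb k => Alg36.le_dn k hb⟩).ctr_iff, (ws_sd _).ctr_iff]
    exact sctr_max (m := y) le_rfl fun _ h => h
  · have e : {e : Ch P | e.top ∈ K ∧ ∃ x ∈ e.1, x ∉ Nᶜ} = Ch.top ⁻¹' (K ∩ N) :=
      Set.ext fun c => and_congr_right fun h => ⟨fun ⟨x, a, b⟩ => up c h ⟨x, a, not_not.1 b⟩,
        fun k => ⟨_, c.top_mem, not_not.2 k⟩⟩
    rw [mvH_eq, mvK_eq hK, e]
    exact (ws_top _).comp (ws_sd _)
  · have e : mvK K N ∩ mvH K N = In (Cv K (cb (ind N))) Set.univ := by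
      have v : ∀ e : Ch P, e ∈ Cv K (cb (ind N)) ↔
          (e.top ∈ K ∧ ∃ x ∈ e.1, x ∉ N) ∧ e.top ∈ K ∧ ∃ x ∈ e.1, x ∉ Nᶜ := fun e => by
        refine ⟨fun h => ?_, fun h => ⟨fun x hx => hK (Ch.le_top hx) h.1.1, ?_⟩⟩
        · have k := h.2
          have : e.top ∈ N ∧ e.bot ∉ N := by
            simp only [cb, ind] at k
            split_ifs at k <;> simp_all
          exact ⟨⟨h.1 _ e.top_mem, _, e.bot_mem, this.2⟩, h.1 _ e.top_mem, _, e.top_mem,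
            not_not.2 this.1⟩
        · obtain ⟨x, a, b⟩ := h.2.2
          rw [cb, ind_of_mem (up e h.1.1 ⟨x, a, not_not.1 b⟩), ind_of_not (dn e h.1.1 h.1.2)]
          norm_num
      rw [mvH_eq, mvK_eq hK, mvK_eq hK]
      exact Set.ext fun c => ⟨fun h => ⟨fun x hx => (v x).2 ⟨h.1.1 x hx, h.2.1 x hx⟩, trivial⟩,
        fun h => ⟨⟨fun x hx => ((v x).1 (h.1 x hx)).1, trivial⟩,
          fun x hx => ((v x).1 (h.1 x hx)).2, trivial⟩⟩
    rw [e]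
    exact ws_top _

end Crest.Agent.X212.Mv42
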